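import Vale.Agent.P136.Bdl.B5

open Vale.Agent.P136.Elasticity

namespace Vale.Agent.Results.P136.GlobalUniqueness

/-- Global uniqueness in the inverse boundary value problem for isotropic elasticity in three
dimensions: equality of the displacement-to-traction maps of two admissible pairs of smooth
Lame moduli on a bounded connected smooth domain implies equality of the pairs. -/
theorem result (Ω : Set E3) (hΩ : SmoothDomain Ω) (lam₁ mu₁ lam₂ mu₂ : E3 → ℝ)
    (h₁ : Admissible Ω lam₁ mu₁) (h₂ : Admissible Ω lam₂ mu₂)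
    (hDN : SameDN Ω lam₁ mu₁ lam₂ mu₂) :
    ∀ x ∈ Ω, lam₁ x = lam₂ x ∧ mu₁ x = mu₂ x :=
  Vale.Agent.P136.global_uniqueness Ω (Vale.Agent.P136.Bridge.smoothDomain hΩ) lam₁ mu₁ lam₂ mu₂
    (Vale.Agent.P136.Bridge.admissible h₁) (Vale.Agent.P136.Bridge.admissible h₂)
    (Vale.Agent.P136.Bridge.sameDN hDN)

end Vale.Agent.Results.P136.GlobalUniqueness
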